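import Vale.Agent.Lib.P154.Neg.LP.Base

/-!
The data of a certificate for a restricted range of `theta`, with all its checks.
-/

namespace Vale.Agent.Lib.P154.Neg.B4100

open Vale.Agent.Lib.P154.Neg.Kron Vale.Agent.Lib.P154.Neg Vale.Agent.Lib.P154.Neg.Cst

def tX_1 : CT := (.leaf [129, 6322, 309779] [48, 48, 48])
def tX_2 : CT := (.s12 (.s01 (.leaf [168, 8233, 403418] [48, 48, 48]) (.s12 (.leaf [170, 8331, 408220] [48, 48, 48]) (.leaf [179, 8772, 429829] [48, 48, 48]))) (.s02 (.leaf [169, 8282, 405819] [48, 48, 48]) (.leaf [159, 7792, 381809] [48, 48, 48])))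
def tX_0 : CT := .s02 tX_1 tX_2
def tY1_2 : CT := (.leaf [591, 28960, 1419041] [48, 48, 48])
def tY1_3 : CT := (.leaf [606, 29695, 1455056] [48, 48, 48])
def tY1_1 : CT := .s02 tY1_2 tY1_3
def tY1_4 : CT := (.leaf [582, 28519, 1397432] [48, 48, 48])
def tY1_0 : CT := .s02 tY1_1 tY1_4
def tY2_0 : CT := (.leaf [427, 15800, 584601] [36, 36, 36])
def tQ1_1 : BT := (.split 1 (4) (.split 3 (6) (.leaf [450, 9901, 108912, 1742593] [21, 10, 15, 6]) (.leaf [451, 9923, 109154, 1746465] [21, 10, 15, 6])) (.split 3 (6) (.split 3 (3) (.leaf [451, 9923, 109154, 1746465] [21, 10, 15, 6]) (.leaf [451, 9923, 109154, 1746465] [21, 10, 15, 6])) (.leaf [452, 9945, 109396, 1750337] [21, 10, 15, 6])))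
def tQ1_3 : BT := (.split 3 (15) (.split 1 (4) (.leaf [452, 9945, 109396, 1750337] [21, 10, 15, 6]) (.leaf [452, 9945, 109396, 1750337] [21, 10, 15, 6])) (.split 1 (4) (.split 1 (2) (.leaf [452, 9945, 109396, 1750337] [21, 10, 15, 6]) (.leaf [452, 9945, 109396, 1750337] [21, 10, 15, 6])) (.leaf [452, 9945, 109396, 1750337] [21, 10, 15, 6])))
def tQ1_4 : BT := (.split 1 (4) (.split 3 (21) (.split 1 (2) (.leaf [452, 9945, 109396, 1750337] [21, 10, 15, 6]) (.leaf [452, 9945, 109396, 1750337] [21, 10, 15, 6])) (.leaf [453, 9967, 109638, 1754209] [21, 10, 15, 6])) (.leaf [453, 9967, 109638, 1754209] [21, 10, 15, 6]))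
def tQ1_2 : BT := .split 3 (18) tQ1_3 tQ1_4
def tQ1_0 : BT := .split 3 (12) tQ1_1 tQ1_2
def tQ3_4 : BT := (.leaf [437, 6993, 76924, 1230785] [15, 10, 15, 6])
def tQ3_5 : BT := (.split 0 (4682) (.split 3 (9) (.leaf [437, 6993, 76924, 1230785] [15, 10, 15, 6]) (.split 1 (1) (.split 0 (4129) (.leaf [438, 7009, 77100, 1233601] [15, 10, 15, 6]) (.leaf [438, 7009, 77100, 1233601] [15, 10, 15, 6])) (.leaf [438, 7009, 77100, 1233601] [15, 10, 15, 6]))) (.leaf [438, 7009, 77100, 1233601] [15, 10, 15, 6]))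
def tQ3_3 : BT := .split 3 (6) tQ3_4 tQ3_5
def tQ3_6 : BT := (.leaf [438, 7009, 77100, 1233601] [15, 10, 15, 6])
def tQ3_2 : BT := .split 0 (5788) tQ3_3 tQ3_6
def tQ3_7 : BT := (.split 0 (5788) (.split 3 (6) (.split 3 (3) (.leaf [436, 6977, 76748, 1227969] [15, 10, 15, 6]) (.leaf [437, 6993, 76924, 1230785] [15, 10, 15, 6])) (.split 0 (4682) (.leaf [438, 7009, 77100, 1233601] [15, 10, 15, 6]) (.leaf [438, 7009, 77100, 1233601] [15, 10, 15, 6]))) (.leaf [439, 7025, 77276, 1236417] [15, 10, 15, 6]))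
def tQ3_1 : BT := .split 1 (2) tQ3_2 tQ3_7
def tQ3_9 : BT := (.split 0 (5788) (.split 3 (6) (.split 3 (3) (.leaf [437, 6993, 76924, 1230785] [15, 10, 15, 6]) (.leaf [438, 7009, 77100, 1233601] [15, 10, 15, 6])) (.leaf [438, 7009, 77100, 1233601] [15, 10, 15, 6])) (.leaf [440, 7041, 77452, 1239233] [15, 10, 15, 6]))
def tQ3_10 : BT := (.split 3 (6) (.split 0 (5788) (.split 3 (3) (.leaf [438, 7009, 77100, 1233601] [15, 10, 15, 6]) (.leaf [438, 7009, 77100, 1233601] [15, 10, 15, 6])) (.leaf [441, 7057, 77628, 1242049] [15, 10, 15, 6])) (.leaf [439, 7025, 77276, 1236417] [15, 10, 15, 6]))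
def tQ3_8 : BT := .split 1 (6) tQ3_9 tQ3_10
def tQ3_0 : BT := .split 1 (4) tQ3_1 tQ3_8

/-- the data -/
def C : Cst where
  A := ⟨3, 3, 0, 3, 2, 1⟩
  a := (28, 3)
  b := (30, 1)
  c := (63, 2)
  r1 := (3, 4)
  r2 := (11, 12)
  rho1 := (0, 1)
  rho2 := (11, 12)
  g := (9, 25000)
  er := (1, 2)
  kap := (0, 1)
  thm := (3, 10)
  t1 := (2, 5)
  t2 := (41, 100)
  m0 := (47, 100)
  kp0 := (3, 2)
  W := (.add (.add (.add (.add (.add (.add (.add (.mul (.rat (677) 100000) (.pow (.var 1) 2)) (.mul (.rat (1) 2) (.var 0))) (.mul (.mul (.rat (15027) 1000000) (.var 0)) (.var 1))) (.mul (.mul (.rat (-9563) 500000) (.var 0)) (.pow (.var 1) 2))) (.mul (.rat (6263) 250000) (.pow (.var 0) 2))) (.mul (.mul (.rat (539) 200000) (.pow (.var 0) 2)) (.var 1))) (.mul (.rat (-4249) 1000000) (.pow (.var 0) 3))) (.mul (.rat (1887) 500000) (.pow (.var 0) 4)))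
  V1h := (.add (.add (.add (.add (.add (.add (.add (.add (.mul (.rat (-1) 16) (.var 1)) (.mul (.rat (-47117) 2500000) (.pow (.var 1) 2))) (.mul (.rat (1) 8) (.var 0))) (.mul (.mul (.rat (-150667) 10000000) (.var 0)) (.var 1))) (.mul (.mul (.rat (14899) 400000) (.var 0)) (.pow (.var 1) 2))) (.mul (.rat (18639) 1000000) (.pow (.var 0) 2))) (.mul (.mul (.rat (-257879) 10000000) (.pow (.var 0) 2)) (.var 1))) (.mul (.rat (-7009) 5000000) (.pow (.var 0) 3))) (.mul (.rat (23913) 2000000) (.pow (.var 0) 4)))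
  V2h := (.add (.add (.add (.add (.mul (.rat (1) 216) (.var 1)) (.mul (.rat (-43553) 10000000) (.pow (.var 1) 2))) (.mul (.mul (.rat (3393) 2000000) (.var 0)) (.var 1))) (.mul (.rat (-67) 125000) (.pow (.var 0) 2))) (.mul (.rat (201) 500000) (.pow (.var 0) 3)))
  Xi := (.add (.add (.add (.rat (4) 1) (.mul (.rat (-6759471) 1000000) (.var 0))) (.mul (.rat (7884981) 1000000) (.pow (.var 0) 2))) (.mul (.rat (-12644183) 1000000) (.pow (.var 0) 3)))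
  Ek := (.rat 0 1)
  Sz := (.add (.add (.add (.add (.mul (.rat (1) 3) (.var 0)) (.mul (.rat (1) 9) (.pow (.var 0) 2))) (.mul (.rat (5) 81) (.pow (.var 0) 3))) (.mul (.rat (10) 243) (.pow (.var 0) 4))) (.mul (.rat (22) 729) (.pow (.var 0) 5)))
  a0 := 500
  b0 := 552
  c0 := 706
  bRho := (0, 447, 1000)
  bBeta := (0, 8, 8)
  bT := (40, 41, 100)
  bKap := (0, 24, 16)
  bEps := (0, 1, 1000)
  bSig := (0, 137, 250)
  bNu := (0, 817, 1000)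
  bTh := (0, 12, 40)
  bZ := (0, 321071, 500000)
  tX := tX_0
  tY1 := tY1_0
  tY2 := tY2_0
  tM1 := (.leaf [11, 78, 547] [6, 6, 6])
  tM2 := (.leaf [10, 71, 498] [6, 6, 6])
  tN1 := (.leaf [13, 92, 645] [6, 6, 6])
  tN2 := (.leaf [12, 85, 596] [6, 6, 6])
  tQ1 := tQ1_0
  tQ2 := (.leaf [557, 12255, 196081, 2156892] [21, 15, 10, 15])
  tW := (.leaf [66, 595] [8, 8])
  tK := (.leaf [118, 827] [6, 5])
  tS1 := (.leaf [83, 416] [4, 4])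
  tS2 := (.leaf [90, 451] [4, 4])
  tC := (.leaf [73, 293, 1173] [3, 3, 4])
  tXi := (.leaf [43, 173] [3, 0])
  tE := (.leaf [1, 2] [0, 0])
  tZ := (.leaf [330] [15])

/-- the further data -/
def X : Ext where
  rho0 := (447, 1000)
  bR3 := (3576, 8000, 8000)
  bRW := (0, 1, 1)
  tQ3 := tQ3_0

def btQ1_root : List (ℤ × ℤ × ℕ) := [C.bRho, C.bBeta, C.bT, C.bKap]

def btQ1_0l : List (ℤ × ℤ × ℕ) := btQ1_root.set 3 ((btQ1_root.getD 3 (0, 1, 1)).1, (12), (btQ1_root.getD 3 (0, 1, 1)).2.2)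

def btQ1_0r : List (ℤ × ℤ × ℕ) := btQ1_root.set 3 ((12), (btQ1_root.getD 3 (0, 1, 1)).2.1, (btQ1_root.getD 3 (0, 1, 1)).2.2)

def btQ1_2l : List (ℤ × ℤ × ℕ) := btQ1_0r.set 3 ((btQ1_0r.getD 3 (0, 1, 1)).1, (18), (btQ1_0r.getD 3 (0, 1, 1)).2.2)

def btQ1_2r : List (ℤ × ℤ × ℕ) := btQ1_0r.set 3 ((18), (btQ1_0r.getD 3 (0, 1, 1)).2.1, (btQ1_0r.getD 3 (0, 1, 1)).2.2)

def btQ3_root : List (ℤ × ℤ × ℕ) := [X.bR3, C.bBeta, C.bT, C.bTh]

def btQ3_0l : List (ℤ × ℤ × ℕ) := btQ3_root.set 1 ((btQ3_root.getD 1 (0, 1, 1)).1, (4), (btQ3_root.getD 1 (0, 1, 1)).2.2)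

def btQ3_0r : List (ℤ × ℤ × ℕ) := btQ3_root.set 1 ((4), (btQ3_root.getD 1 (0, 1, 1)).2.1, (btQ3_root.getD 1 (0, 1, 1)).2.2)

def btQ3_1l : List (ℤ × ℤ × ℕ) := btQ3_0l.set 1 ((btQ3_0l.getD 1 (0, 1, 1)).1, (2), (btQ3_0l.getD 1 (0, 1, 1)).2.2)

def btQ3_1r : List (ℤ × ℤ × ℕ) := btQ3_0l.set 1 ((2), (btQ3_0l.getD 1 (0, 1, 1)).2.1, (btQ3_0l.getD 1 (0, 1, 1)).2.2)

def btQ3_2l : List (ℤ × ℤ × ℕ) := btQ3_1l.set 0 ((btQ3_1l.getD 0 (0, 1, 1)).1, (5788), (btQ3_1l.getD 0 (0, 1, 1)).2.2)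

def btQ3_2r : List (ℤ × ℤ × ℕ) := btQ3_1l.set 0 ((5788), (btQ3_1l.getD 0 (0, 1, 1)).2.1, (btQ3_1l.getD 0 (0, 1, 1)).2.2)

def btQ3_3l : List (ℤ × ℤ × ℕ) := btQ3_2l.set 3 ((btQ3_2l.getD 3 (0, 1, 1)).1, (6), (btQ3_2l.getD 3 (0, 1, 1)).2.2)

def btQ3_3r : List (ℤ × ℤ × ℕ) := btQ3_2l.set 3 ((6), (btQ3_2l.getD 3 (0, 1, 1)).2.1, (btQ3_2l.getD 3 (0, 1, 1)).2.2)

def btQ3_8l : List (ℤ × ℤ × ℕ) := btQ3_0r.set 1 ((btQ3_0r.getD 1 (0, 1, 1)).1, (6), (btQ3_0r.getD 1 (0, 1, 1)).2.2)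

def btQ3_8r : List (ℤ × ℤ × ℕ) := btQ3_0r.set 1 ((6), (btQ3_0r.getD 1 (0, 1, 1)).2.1, (btQ3_0r.getD 1 (0, 1, 1)).2.2)

end Vale.Agent.Lib.P154.Neg.B4100
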